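import Vale.Agent.Lib.P228.Structure

/-!
# P228: the structure of locally monotone actions of the p-adic integers, in one theorem

Let the additive group of p-adic integers act continuously on a subset `M` of a real inner
product space.  A map is monotone on `N` if `<g.y - g.z, y - z> >= 0` for all `y, z` in `N`.

* (I) If every point of `M` has an open neighbourhood `N` and an open subgroup `U` (both may
  depend on the point) such that every element of `U` is monotone on `N`, then every point has
  an open neighbourhood that is fixed pointwise by an open subgroup; and if `M` is compact, one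
  open subgroup fixes every point of `M`, so the action is not faithful.
* (II) If one open subgroup `U` works for all points and `M` is connected, one open subgroup
  fixes every point of `M`, so the action is not faithful.
* (III) If every element of an open subgroup `U` is monotone on all of `M`, then `U` itself
  fixes every point of `M`, so the action is not faithful.

The non-faithfulness parts are the hand-ins `LocallyMonotoneCompact`, `LocallyMonotoneActions`
and `MonotoneActions` of this folder; the local statement in (I) and the open subgroups acting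
trivially in (I) and (II) are additional.
-/

namespace Vale.Agent.Results.P228.LocalStructure

theorem result (p : ℕ) [Fact p.Prime] {H : Type*} [NormedAddCommGroup H]
    [InnerProductSpace ℝ H] (M : Set H) [AddAction ℤ_[p] M] [ContinuousVAdd ℤ_[p] M] :
    ((∀ x : M, ∃ N : Set M, IsOpen N ∧ x ∈ N ∧ ∃ U : AddSubgroup ℤ_[p],
        IsOpen (U : Set ℤ_[p]) ∧ ∀ g ∈ U, ∀ y ∈ N, ∀ z ∈ N,
          0 ≤ inner ℝ (((g +ᵥ y : M) : H) - ((g +ᵥ z : M) : H)) ((y : H) - (z : H))) →
      (∀ x : M, ∃ N' : Set M, IsOpen N' ∧ x ∈ N' ∧ ∃ V : AddSubgroup ℤ_[p],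
        IsOpen (V : Set ℤ_[p]) ∧ ∀ g ∈ V, ∀ y ∈ N', g +ᵥ y = y) ∧
      (IsCompact M →
        (∃ V : AddSubgroup ℤ_[p], IsOpen (V : Set ℤ_[p]) ∧ ∀ g ∈ V, ∀ y : M, g +ᵥ y = y) ∧
        ¬ FaithfulVAdd ℤ_[p] M)) ∧
    (∀ U : AddSubgroup ℤ_[p], IsOpen (U : Set ℤ_[p]) →
      (∀ x : M, ∃ N : Set M, IsOpen N ∧ x ∈ N ∧ ∀ g ∈ U, ∀ y ∈ N, ∀ z ∈ N,
        0 ≤ inner ℝ (((g +ᵥ y : M) : H) - ((g +ᵥ z : M) : H)) ((y : H) - (z : H))) →
      IsPreconnected M →
        (∃ V : AddSubgroup ℤ_[p], IsOpen (V : Set ℤ_[p]) ∧ ∀ g ∈ V, ∀ y : M, g +ᵥ y = y) ∧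
        ¬ FaithfulVAdd ℤ_[p] M) ∧
    (∀ U : AddSubgroup ℤ_[p], IsOpen (U : Set ℤ_[p]) →
      (∀ g ∈ U, ∀ x y : M,
        0 ≤ inner ℝ (((g +ᵥ x : M) : H) - ((g +ᵥ y : M) : H)) ((x : H) - (y : H))) →
      (∀ g ∈ U, ∀ x : M, g +ᵥ x = x) ∧ ¬ FaithfulVAdd ℤ_[p] M) :=
  Vale.Agent.Lib.P228.Structure.structure_main p M

end Vale.Agent.Results.P228.LocalStructure
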