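import Vale.Agent.Lib.P228.LocalMonotone

namespace Vale.Agent.Results.P228.LocallyMonotoneActions

/-- Hilbert-Smith for locally monotone actions on connected sets: let the p-adic integers act
continuously on a connected subset M of a real inner product space. If there is an open
subgroup U such that every point of M has an open neighbourhood N (in M) on which every
element of U acts by a monotone map (in the sense of monotone operators), then the action is
not faithful. -/
theorem result (p : ℕ) [Fact p.Prime] {H : Type*} [NormedAddCommGroup H]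
    [InnerProductSpace ℝ H] (M : Set H) [AddAction ℤ_[p] M] [ContinuousVAdd ℤ_[p] M]
    (hM : IsPreconnected M)
    (U : AddSubgroup ℤ_[p]) (hU : IsOpen (U : Set ℤ_[p]))
    (hloc : ∀ x : M, ∃ N : Set M, IsOpen N ∧ x ∈ N ∧ ∀ g ∈ U, ∀ y ∈ N, ∀ z ∈ N,
      0 ≤ inner ℝ (((g +ᵥ y : M) : H) - ((g +ᵥ z : M) : H)) ((y : H) - (z : H))) :
    ¬ FaithfulVAdd ℤ_[p] M :=
  Vale.Agent.Lib.P228.Local.locally_monotone_not_faithful p M hM U hU hloc

end Vale.Agent.Results.P228.LocallyMonotoneActions
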