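import Vale.Agent.Lib.P228.Monotone

namespace Vale.Agent.Results.P228.MonotoneActions

/-- Hilbert-Smith for monotone actions: if the p-adic integers act continuously on a subset
M of a real inner product space and every element of an open subgroup U acts by a monotone
map (in the sense of monotone operators), then U acts trivially, so the action is not
faithful. -/
theorem result (p : ℕ) [Fact p.Prime] {H : Type*} [NormedAddCommGroup H]
    [InnerProductSpace ℝ H] (M : Set H) [AddAction ℤ_[p] M] [ContinuousVAdd ℤ_[p] M]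
    (U : AddSubgroup ℤ_[p]) (hU : IsOpen (U : Set ℤ_[p]))
    (hmono : ∀ g ∈ U, ∀ x y : M,
      0 ≤ inner ℝ (((g +ᵥ x : M) : H) - ((g +ᵥ y : M) : H)) ((x : H) - (y : H))) :
    (∀ g ∈ U, ∀ x : M, g +ᵥ x = x) ∧ ¬ FaithfulVAdd ℤ_[p] M :=
  ⟨fun g hg x => Vale.Agent.Lib.P228.monotone_action_trivial p M U hmono g hg x,
    Vale.Agent.Lib.P228.monotone_action_not_faithful p M U hU hmono⟩

end Vale.Agent.Results.P228.MonotoneActions
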